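import Vale.Agent.P018.H867P.Fin

open Polynomial Filter Topology Asymptotics

open Vale.Agent.P018 Vale.Agent.P018.H867 in
/-- Power-free values, in the ranges `InRange d k`: `d ≤ 4`, or `d < 2 k`, or `2 d + 12 ≤ 7 k`, or
`d / 4 + (log d) ^ 2 ≤ k`.
(1) irreducible polynomials, the predicted asymptotic with a power-saving error term;
(2) polynomials without multiple factors, possibly reducible, all irreducible factors of which have
their degree in the range, the same with a power-saving error term;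
(3) several such polynomials `f i`, each with its own exponent `k i`, simultaneously, the same. -/
theorem Vale.Agent.Results.P018.PowerSaving.result :
    (∀ (f : ℤ[X]) (k : ℕ), 2 ≤ k → Irreducible (f.map (Int.castRingHom ℚ)) →
      (∀ p : ℕ, p.Prime → rho f (p ^ k) < p ^ k) →
      (f.natDegree ≤ 4 ∨ f.natDegree < 2 * k ∨ 2 * f.natDegree + 12 ≤ 7 * k ∨
        (f.natDegree : ℝ) / 4 + Real.log f.natDegree ^ 2 ≤ k) →
      Multipliable (fun p : Nat.Primes => 1 - (rho f ((p : ℕ) ^ k) : ℝ) / ((p : ℕ) : ℝ) ^ k) ∧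
      0 < density f k ∧
      (fun X : ℕ => (countPF f k X : ℝ) - density f k * X) =o[atTop] (fun X : ℕ => (X : ℝ)) ∧
      ∃ δ C : ℝ, 0 < δ ∧ ∀ X : ℕ, 1 ≤ X →
        |(countPF f k X : ℝ) - density f k * X| ≤ C * (X : ℝ) ^ (1 - δ)) ∧
    (∀ (f : ℤ[X]) (k : ℕ), 2 ≤ k → Good f k →
      (∀ p : ℕ, p.Prime → rho f (p ^ k) < p ^ k) →
      Multipliable (fun p : Nat.Primes => 1 - (rho f ((p : ℕ) ^ k) : ℝ) / ((p : ℕ) : ℝ) ^ k) ∧
      0 < density f k ∧
      ∃ δ C : ℝ, 0 < δ ∧ ∀ X : ℕ, 1 ≤ X →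
        |(countPF f k X : ℝ) - density f k * X| ≤ C * (X : ℝ) ^ (1 - δ)) ∧
    (∀ (m : ℕ) (f : Fin m → ℤ[X]) (k : Fin m → ℕ), 0 < m →
      (∀ i, 2 ≤ k i ∧ Good (f i) (k i)) →
      (∀ p : ℕ, p.Prime → rhoS f k p < p ^ topExp k) →
      Multipliable (fun p : Nat.Primes => 1 - (rhoS f k p : ℝ) / ((p : ℕ) : ℝ) ^ topExp k) ∧
      0 < densityS f k ∧
      ∃ δ C : ℝ, 0 < δ ∧ ∀ X : ℕ, 1 ≤ X →
        |(countS f k X : ℝ) - densityS f k * X| ≤ C * (X : ℝ) ^ (1 - δ)) := by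
  refine ⟨fun f k hk hirr hloc hr => ?_, fun f k hk hf hloc => ?_, fun m f k hm h hloc => ?_⟩
  · have hf : Good f k := H867P.good_of_irr f k hirr hr
    obtain ⟨h1, h2⟩ := Q.main_all f k hk hirr hloc hr
    exact ⟨multipliable_density f k hk hirr, h1, h2, H867P.main_pow f k hk hf hloc⟩
  · obtain ⟨h1, h2, -⟩ := main_one f k hk hf hloc
    exact ⟨h1, h2, H867P.main_pow f k hk hf hloc⟩
  · obtain ⟨h1, h2, -⟩ := main_family hm f k (fun i => (h i).1) (fun i => (h i).2) hloc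
    exact ⟨h1, h2, H867P.main_family_pow H867P.sieveBalls hm f k (fun i => (h i).1)
      (fun i => (h i).2) hloc⟩
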